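import Vale.Agent.P031.Fin

/-!
# P031: the Erdős–Hall question on the number of totient values

`V (c x) / V x → c` for every fixed real `c > 1`.
-/

namespace Vale.Agent.Results.P031.ErdosHallRatio

open Filter Topology

/-- `V x` is the number of distinct values `v` of Euler's totient function (`v = φ n` for some `n ≥ 1`)
with `v ≤ x` -/
noncomputable def V (x : ℝ) : ℕ :=
  Set.ncard {v : ℕ | (∃ n : ℕ, 1 ≤ n ∧ Nat.totient n = v) ∧ (v : ℝ) ≤ x}

theorem result : ∀ c : ℝ, 1 < c →
    Tendsto (fun x : ℝ => (V (c * x) : ℝ) / (V x : ℝ)) atTop (𝓝 c) :=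
  fun c hc => _root_.P031.main c hc

end Vale.Agent.Results.P031.ErdosHallRatio
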